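import Mathlib

/-!
Tamed and compatible symplectic forms on manifolds modelled on a normed space `E`, over Mathlib only.
-/

open scoped Manifold ContDiff

noncomputable section

namespace Vale.Agent.P204.Closed

universe u

variable {E : Type} [NormedAddCommGroup E] [NormedSpace ℝ E]
  {X : Type u} [TopologicalSpace X] [ChartedSpace E X]

/-- The two-form read in the chart at `x₀`. -/
def formInChart (form : (x : X) → (TangentSpace 𝓘(ℝ, E) x) [⋀^Fin 2]→L[ℝ] ℝ) (x₀ : X) (y : E) :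
    E [⋀^Fin 2]→L[ℝ] ℝ :=
  (form ((chartAt E x₀).symm y)).compContinuousLinearMap
    (mfderiv 𝓘(ℝ, E) 𝓘(ℝ, E) (chartAt E x₀).symm y)

/-- An endomorphism field read in the chart at `x₀`. -/
def endInChart (J : (x : X) → TangentSpace 𝓘(ℝ, E) x →L[ℝ] TangentSpace 𝓘(ℝ, E) x) (x₀ : X)
    (y : E) : E →L[ℝ] E :=
  ((mfderiv 𝓘(ℝ, E) 𝓘(ℝ, E) (chartAt E x₀) ((chartAt E x₀).symm y)).comp
    (J ((chartAt E x₀).symm y))).comp
    (mfderiv 𝓘(ℝ, E) 𝓘(ℝ, E) (chartAt E x₀).symm y)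

/-- `J` is a smooth almost complex structure: it is smooth in every chart and squares to `-id`. -/
def IsAlmostComplex (J : (x : X) → TangentSpace 𝓘(ℝ, E) x →L[ℝ] TangentSpace 𝓘(ℝ, E) x) : Prop :=
  (∀ x₀ : X, ContDiffOn ℝ ∞ (endInChart J x₀) (chartAt E x₀).target) ∧
    ∀ (x : X) (v : TangentSpace 𝓘(ℝ, E) x), J x (J x v) = -v

/-- `form` is a symplectic form: smooth and closed in every chart, and nondegenerate. -/
def IsSymplecticForm (form : (x : X) → (TangentSpace 𝓘(ℝ, E) x) [⋀^Fin 2]→L[ℝ] ℝ) : Prop :=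
  (∀ x₀ : X, ContDiffOn ℝ ∞ (formInChart form x₀) (chartAt E x₀).target) ∧
    (∀ x₀ : X, ∀ y ∈ (chartAt E x₀).target, extDeriv (formInChart form x₀) y = 0) ∧
      ∀ (x : X) (v : TangentSpace 𝓘(ℝ, E) x), v ≠ 0 →
        ∃ w : TangentSpace 𝓘(ℝ, E) x, form x ![v, w] ≠ 0

/-- `form` tames `J`. -/
def Tames (form : (x : X) → (TangentSpace 𝓘(ℝ, E) x) [⋀^Fin 2]→L[ℝ] ℝ)
    (J : (x : X) → TangentSpace 𝓘(ℝ, E) x →L[ℝ] TangentSpace 𝓘(ℝ, E) x) : Prop :=
  ∀ (x : X) (v : TangentSpace 𝓘(ℝ, E) x), v ≠ 0 → 0 < form x ![v, J x v]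

/-- `form` is compatible with `J`: it tames `J` and is invariant under `J`. -/
def IsCompatible (form : (x : X) → (TangentSpace 𝓘(ℝ, E) x) [⋀^Fin 2]→L[ℝ] ℝ)
    (J : (x : X) → TangentSpace 𝓘(ℝ, E) x →L[ℝ] TangentSpace 𝓘(ℝ, E) x) : Prop :=
  Tames form J ∧ ∀ (x : X) (u v : TangentSpace 𝓘(ℝ, E) x), form x ![J x u, J x v] = form x ![u, v]

variable (E)

/-- Donaldson's question for closed manifolds modelled on `E`. -/
def TamedToCompatibleOn : Prop :=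
  ∀ (X : Type u) [TopologicalSpace X] [T2Space X] [CompactSpace X] [ChartedSpace E X]
    [IsManifold 𝓘(ℝ, E) ∞ X] (J : (x : X) → TangentSpace 𝓘(ℝ, E) x →L[ℝ] TangentSpace 𝓘(ℝ, E) x),
    IsAlmostComplex J →
      (∃ form : (x : X) → (TangentSpace 𝓘(ℝ, E) x) [⋀^Fin 2]→L[ℝ] ℝ,
        IsSymplecticForm form ∧ Tames form J) →
      ∃ form : (x : X) → (TangentSpace 𝓘(ℝ, E) x) [⋀^Fin 2]→L[ℝ] ℝ,
        IsSymplecticForm form ∧ IsCompatible form J


end Vale.Agent.P204.Closed
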