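import Vale.Agent.P204.Closed.Statement
import Vale.Agent.P204.Full.Main

/-!
The compact statement follows from the theorem over the fixed model space by unfolding.
-/

noncomputable section

namespace Vale.Agent.P204.Closed

universe u

/-- Donaldson's conjecture on every closed four-manifold. -/
theorem tamedToCompatibleOn : TamedToCompatibleOn.{u} (EuclideanSpace ℝ (Fin 4)) :=
  Vale.Agent.P204.Full.tamedToCompatible.{u}

end Vale.Agent.P204.Closed
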